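import Vale.Agent.P275.H341.Psh

/-! # P275, lowest degree: row A1 (the partition with one part) (helper887) -/

namespace Vale.Agent.P275.R2.H887

open Filter Topology Asymptotics Vale.Agent.P275.H341

/-- the partition with one part -/
def row1 (k : ℕ) : Fin k → ℕ := fun i => if (i : ℕ) = 0 then k else 0

theorem row1_mem (k : ℕ) : row1 k ∈ Pt k := by
  unfold Pt
  rw [Finset.mem_filter, Finset.Nat.mem_antidiagonalTuple]
  constructor
  · rcases k with _ | k
    · simp
    · rw [Fin.sum_univ_succ]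
      simp [row1]
  · intro i j hij
    unfold row1
    by_cases hj : (j : ℕ) = 0
    · have hi : (i : ℕ) = 0 := by
        have : (i : ℕ) ≤ j := hij
        omega
      rw [if_pos hj, if_pos hi]
    · rw [if_neg hj]
      exact Nat.zero_le _

theorem jt_row1 (u : ℕ → ℂ) (h0 : u 0 = 1) (k : ℕ) : jt u (row1 k) = u k := by
  unfold jt
  rw [Matrix.det_of_isUpperTriangular]
  · rcases k with _ | k
    · simp [h0]
    · rw [Fin.prod_univ_succ]
      simp [row1, h0]
  · intro i j hij
    have hij' : (j : ℕ) < i := hij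
    rw [Matrix.of_apply, if_neg]
    unfold row1
    rw [if_neg (by omega)]
    omega

theorem rowA1 (H8 : RowA8) (q : ℂ) (hq : q ≠ 0) (h1 : ∀ n, 0 < n → q ^ n ≠ 1) (k : ℕ) :
    row1 k ∈ Pt k ∧ hk q (row1 k) = ∏ i ∈ Finset.range k, (q ^ (i + 1) - 1) := by
  refine ⟨row1_mem k, ?_⟩
  have h := H8 q hq h1 k (row1 k) (row1_mem k)
  rw [jt_row1 _ (by simp) k, Finset.prod_inv_distrib] at h
  have hne : ∏ i ∈ Finset.range k, (q ^ (i + 1) - 1) ≠ 0 :=
    Finset.prod_ne_zero_iff.2 fun i _ => sub_ne_zero.2 (h1 (i + 1) i.succ_pos)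
  rw [inv_mul_eq_iff_eq_mul₀ hne, mul_one] at h
  exact h

end Vale.Agent.P275.R2.H887
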